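import Vale.Agent.P235.K5.H12.Fin

set_option linter.all false

/-!
# P235, line TW+ (helper142): clique sums over at most three vertices of planar pieces (glued along
a facial root) and of graphs of treewidth at most `k` (glued along any triangles)

Invariant on the bags: `c * d x y ≤ 4 * F x y + FN x y`, where `F` may be degenerate on the root
cliques and `FN` is the cut metric of Theorem N on the refined tree.
-/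

namespace Vale.Agent.P235.K5.TW

open Finset Function Vale.Agent.P235 Vale.Agent.P235.H684 Vale.Agent.P235.K5

/-- the lower bound of an extension: `F` is at least `c0 * d`, or there are root vertices `r`, `s`
such that `F` is at least `ρ r s` plus three quarters of the distances to `r`, `s` -/
def LowAt {V : Type} (c0 : ℝ) (d : V → V → ℝ) (S : Set V) (ρ F : V → V → ℝ) (x y : V) : Prop :=
  c0 * d x y ≤ F x y ∨ ∃ r ∈ S, ∃ s ∈ S, ρ r s + 3 / 4 * (d x r + d s y) ≤ F x y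

/-- **[EXT-P]** -/
def ExtPStmt : Prop :=
  ∀ c : ℝ, 0 < c → c ≤ 1 → ∃ c0 : ℝ, 0 < c0 ∧ c0 ≤ 1 ∧
    ∀ (V : Type) [Finite V] (G : SimpleGraph V) (S : Set V), H500.PC c V G S → S.ncard ≤ 3 →
      (∀ u ∈ S, ∀ v ∈ S, u ≠ v → G.Adj u v) → ∀ d : V → V → ℝ, IsMet d → Gen G d →
      ∀ ρ : V → V → ℝ, IsL1 ρ → (∀ x ∈ S, ∀ y ∈ S, ρ x y ≤ d x y) →
        ∃ F : V → V → ℝ, IsL1 F ∧ (∀ x ∈ S, ∀ y ∈ S, F x y = ρ x y) ∧ (∀ x y, F x y ≤ d x y) ∧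
          ∀ x y, LowAt c0 d S ρ F x y

/-- **[EXT-W]** purely metric -/
def ExtWStmt : Prop :=
  ∃ c0 κ : ℝ, 0 < c0 ∧ c0 ≤ 1 ∧ 0 < κ ∧
    ∀ (V : Type) [Finite V] (S : Set V), S.ncard ≤ 3 → ∀ d : V → V → ℝ, IsMet d →
      ∀ ρ : V → V → ℝ, IsL1 ρ → (∀ x ∈ S, ∀ y ∈ S, ρ x y ≤ d x y) →
        ∃ F : V → V → ℝ, IsL1 F ∧ (∀ x ∈ S, ∀ y ∈ S, F x y = ρ x y) ∧ (∀ x y, F x y ≤ d x y) ∧
          ∀ x y, (∃ r ∈ S, ∃ s ∈ S, d x r + d s y ≤ κ * d x y) → LowAt c0 d S ρ F x y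

/-- **[REC+]** the recursion over the coarse bags; `W t` = the bag `t` has small treewidth,
`Good t x y` = the pair lies in a common refined bag of `t` -/
def RecPStmt : Prop :=
  ∀ {V : Type} [Finite V] {H : SimpleGraph V} {n : ℕ} {B : ℕ → Set V}, Glued 3 H n B →
    ∀ {d : V → V → ℝ}, IsMet d → Gen H d → ∀ {FN : V → V → ℝ}, IsL1 FN →
      (∀ x y, FN x y ≤ d x y) → ∀ {c0 κ cN : ℝ}, 0 < c0 → c0 ≤ 1 → 0 < cN → cN ≤ 1 →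
      ∀ (W : ℕ → Prop) (Good : ℕ → V → V → Prop),
      (∀ t < n, ¬ W t → ∀ ρ : V → V → ℝ, IsL1 ρ →
        (∀ x ∈ Adh B t, ∀ y ∈ Adh B t, ρ x y ≤ d x y) →
        ∃ F : V → V → ℝ, IsL1 F ∧ (∀ x ∈ Adh B t, ∀ y ∈ Adh B t, F x y = ρ x y) ∧
          (∀ x ∈ B t, ∀ y ∈ B t, F x y ≤ d x y) ∧
          ∀ x ∈ B t, ∀ y ∈ B t, LowAt c0 d (Adh B t) ρ F x y) →
      (∀ t < n, W t → ∀ ρ : V → V → ℝ, IsL1 ρ →
        (∀ x ∈ Adh B t, ∀ y ∈ Adh B t, ρ x y ≤ d x y) →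
        ∃ F : V → V → ℝ, IsL1 F ∧ (∀ x ∈ Adh B t, ∀ y ∈ Adh B t, F x y = ρ x y) ∧
          (∀ x ∈ B t, ∀ y ∈ B t, F x y ≤ d x y) ∧
          ∀ x ∈ B t, ∀ y ∈ B t,
            (∃ r ∈ Adh B t, ∃ s ∈ Adh B t, d x r + d s y ≤ κ * d x y) →
              LowAt c0 d (Adh B t) ρ F x y) →
      (∀ t < n, W t → ∀ x ∈ B t, ∀ y ∈ B t, Good t x y → cN * d x y ≤ FN x y ∨
        ∃ r ∈ Adh B t, ∃ s ∈ Adh B t, d x r + d s y ≤ κ * d x y) →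
      (∀ t < n, ∀ x y, Good t x y → Good t y x) →
      (∀ t < n, W t → ∀ x ∈ B t, x ∉ Bef B t → ∀ y ∈ B t, H.Adj x y → Good t x y) →
      ∃ F : V → V → ℝ, IsL1 F ∧ (∀ x y, F x y ≤ d x y) ∧
        ∀ t < n, ∀ x ∈ B t, ∀ y ∈ B t, (¬ W t ∨ Good t x y) →
          min c0 cN * d x y ≤ 4 * F x y + FN x y

/-- at most one new vertex -/
def One {V : Type} (B : ℕ → Set V) (t : ℕ) : Prop :=
  ∀ u ∈ B t, ∀ v ∈ B t, u ∉ Bef B t → v ∉ Bef B t → u = v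

/-- `t` is below `t0` and all bags from `t0` to `t` have one new vertex -/
inductive Thin {V : Type} (B : ℕ → Set V) (par : ℕ → ℕ) (m t0 : ℕ) : ℕ → Prop
  | base : t0 < m → One B t0 → Thin B par m t0 t0
  | step {t : ℕ} : t < m → 0 < t → Thin B par m t0 (par t) → One B t → Thin B par m t0 t

/-- the same for trees of torsos -/
inductive ThinT {n T k : ℕ} (Z : Tor n T k) (t0 : Fin T) : Fin T → Prop
  | base : (∀ v w, Z.tor v = t0 → Z.tor w = t0 → v = w) → ThinT Z t0 t0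
  | step {t : Fin T} : Z.up t ≠ t → ThinT Z t0 (Z.up t) →
      (∀ v w, Z.tor v = t → Z.tor w = t → v = w) → ThinT Z t0 t

/-- **Output of Theorem N with capture on the thin chains** -/
def NLawC {n T k : ℕ} (Z : Tor n T k) (d : Fin n → Fin n → ℝ) (C1 : ℝ) : Prop :=
  ∃ (μ : Fin T → (Fin n → Bool) → ℝ) (Λ : ℝ), 0 < Λ ∧ (∀ t, IsLaw (μ t)) ∧ Z.ConsT μ ∧
    (∀ t, ∀ p ∈ Z.H t, ∀ p' ∈ Z.H t, Λ * Ex (μ t) (dif p p') ≤ d p p') ∧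
    (∀ (s : ℕ → Fin T) (N : ℕ), Path Z.tree s N → ∀ z : Fin n, Z.tor z = s N →
      ∀ r : ℝ, 0 < r → (∀ a ∈ Z.S (s 1), r ≤ d z a) →
      ∃ (c : ℝ) (Ω : Type) (_ : Fintype Ω) (w : Ω → ℝ) (X : ℕ → Ω → (Fin n → Bool)),
        Z.CoupT μ s N z c w X ∧ r ≤ C1 * (Λ * c)) ∧
    ∀ t0 t, ThinT Z t0 t → ∀ z ∈ Z.H t, ∀ a ∈ Z.S t,
      d z a ≤ C1 * (Λ * Ex (μ t) (dif z a)) ∨
        ∃ r ∈ Z.S t0, ∃ s ∈ Z.S t0, d z r + d s a ≤ C1 * (Λ * Ex (μ t) (dif z a))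

/-- **[N-CAP]** -/
def NCapStmt : Prop :=
  ∀ k : ℕ, 1 ≤ k → ∃ C1 : ℝ, 0 < C1 ∧
    ∀ (n T : ℕ) (Z : Tor n T k) (d : Fin n → Fin n → ℝ), Z.Sep d → NLawC Z d C1

/-- **[N-HALF+]** `exists_N` of H12/Fin with the capture -/
def NHalfStmt : Prop :=
  ∀ k : ℕ, 1 ≤ k → ∃ C2 : ℝ, 1 ≤ C2 ∧ ∀ {V : Type} [Finite V] {H : SimpleGraph V} {m : ℕ}
    {B : ℕ → Set V} (h : Glued k H m B), (∀ t < m, ∃ v ∈ B t, v ∉ Bef B t) → ∀ (T : BTree m B)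
    {d : V → V → ℝ}, IsMet d → Gen H d →
    ∃ F : V → V → ℝ, IsL1 F ∧ (∀ t < m, ∀ x ∈ B t, ∀ y ∈ B t, F x y ≤ d x y) ∧
      (∀ t < m, 0 < t → ∀ x ∈ h.Sub T t, ∀ y ∉ h.Sub T t, ∀ r : ℝ, 0 < r →
        (∀ a ∈ Adh B t, r ≤ d x a) → r ≤ C2 * F x y) ∧
      ∀ t0 t, Thin B T.par m t0 t → ∀ z ∈ B t, ∀ a ∈ Adh B t, d z a ≤ C2 * F z a ∨
        ∃ r ∈ Adh B t0, ∃ s ∈ Adh B t0, d z r + d s a ≤ C2 * F z a

/-- **[REF]** bags of treewidth at most `k` are cut into bags with one new vertex each -/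
def RefStmt : Prop :=
  ∀ (k : ℕ) {V : Type} [Finite V] {H : SimpleGraph V} {n : ℕ} {B : ℕ → Set V}, Glued 3 H n B →
    (∀ t < n, ∃ v ∈ B t, v ∉ Bef B t) → ∀ (W : ℕ → Prop),
    (∀ t < n, W t → TreewidthLE (H.induce (B t)) k) →
    ∃ (H' : SimpleGraph V) (n' : ℕ) (B' : ℕ → Set V) (o : ℕ → ℕ), H ≤ H' ∧
      Glued (k + 3) H' n' B' ∧ (∀ t < n', ∃ v ∈ B' t, v ∉ Bef B' t) ∧
      (∀ s t, s ≤ t → t < n' → o s ≤ o t) ∧ (∀ t < n', o t < n ∧ B' t ⊆ B (o t)) ∧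
      (∀ t < n', W (o t) → One B' t) ∧
      ∀ t < n, W t → ∀ x ∈ B t, x ∉ Bef B t → ∀ y ∈ B t, H.Adj x y →
        ∃ t' < n', o t' = t ∧ x ∈ B' t' ∧ y ∈ B' t'

/-- the pieces -/
def PK (c : ℝ) (k : ℕ) (V : Type) (G : SimpleGraph V) (S : Set V) : Prop :=
  H500.PC c V G S ∨ TreewidthLE G k

/-- **[ASM]** the theorem -/
def MainStmt : Prop :=
  ∀ (k : ℕ) (c : ℝ), 0 < c → c ≤ 1 → ∃ K : ℝ, 1 ≤ K ∧
    ∀ (V : Type) [Finite V] (G H : SimpleGraph V), G ≤ H → G.Connected →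
      CliqueSum 3 (PK c k) H → DistortionLE G K

end Vale.Agent.P235.K5.TW
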